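import Vale.Agent.P144C.A.Loc
import Vale.Agent.P144D.I.N5a.Main

/-!
The comparison of the pair at all scales near a mark.
-/

namespace Vale.Agent.P144C

open Finset Matrix Vale.Agent.P144Z Vale.Agent.P144L P144L.G P144L.D IN5a

namespace A

/-- The case of slow variation. -/
theorem slow : ∃ Q : ℕ, 1 ≤ Q ∧ ∀ K : ℝ, 1 ≤ K → ∃ N : ℕ, ∃ c > (0 : ℝ), ∀ (M : ℕ) [NeZero M]
    (I : Finset (Tor M)) (z : Tor M) (r : ℕ) (S : Set (ℤ × ℤ)) (ν : ℂ) φ (U W : ℤ × ℤ → ℝ)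
    (y v : ℤ × ℤ) (ρ : ℕ), ‖ν‖ = 1 → Epi S ν (√2 / 2) →
    (∀ p, zd p 0 ≤ r → (z + prj M p ∈ I ↔ p ∈ S)) → y ∈ S → zd y 0 ≤ 1 → N ≤ ρ → 5 * ρ ≤ r →
    ρ < M → zd v 0 ≤ 4 * ρ → PP I (z + prj M v) (ρ / 2) φ (fun p => U (v + p)) (fun p => W (v + p)) →
    (∀ p, zd p 0 ≤ ρ / 2 → U (v + p) ≤ K * U v) →
    (∀ p, zd p 0 ≤ Q * ρ → p ∈ S → 0 ≤ W p ∧ SupH W p) → Dq W ν ρ (c * U v) := by
  obtain ⟨C₁, β, hC₁, b0, H₁⟩ := depth
  obtain ⟨C₂, hC₂, H₂⟩ := flat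
  obtain ⟨Q, hQ, H₃⟩ := chn
  refine ⟨Q * 8, by omega, fun K hK => ?_⟩
  have k1 : 1 ≤ C₁ * K := by nlinarith
  have k2 : 1 ≤ C₂ * K := by nlinarith
  have e0 : 0 < (1 / (2 * (C₁ * K))) ^ β⁻¹ := by positivity
  obtain ⟨N₂, hN₂⟩ := exists_nat_ge (16 / (1 / (2 * (C₁ * K))) ^ β⁻¹ + 100)
  obtain ⟨N₃, hN₃⟩ := exists_nat_ge (16 * (C₂ * K))
  have n1 : 0 ≤ 16 / (1 / (2 * (C₁ * K))) ^ β⁻¹ := by positivity
  have n2 : 100 ≤ N₂ := by exact_mod_cast (by linarith : (100 : ℝ) ≤ N₂)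
  have n3 : 16 ≤ N₃ := by exact_mod_cast (by linarith : (16 : ℝ) ≤ N₃)
  have n4 : (16 / (N₂ : ℝ)) ^ β ≤ 1 / (2 * (C₁ * K)) := by
    rw [← Real.rpow_inv_rpow (x := 1 / (2 * (C₁ * K))) (by positivity) b0.ne']
    refine Real.rpow_le_rpow (by positivity) ?_ b0.le
    rw [div_le_comm₀ (by linarith) e0]
    linarith
  have p0 : 0 < N₂ * N₃ := by positivity
  obtain ⟨c, c0, -, hc⟩ := H₃ (8 * (N₂ * N₃)) (by omega)
  refine ⟨100 * (N₂ * N₃), c * (1 / 2), by positivity,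
    fun M _ I z r S ν φ U W y v ρ hν hS hI hy hy' hN hr hM hv h hK' hW => ?_⟩
  have z0 : zd (0 : ℤ × ℤ) 0 = 0 := zd_self 0
  have u0 : 0 ≤ U v := by simpa using U_nn h (v := 0) (by omega)
  obtain ⟨m, hm⟩ : ∃ m, m = ρ / (N₂ * N₃) := ⟨_, rfl⟩
  have m1 : 100 ≤ m := hm ▸ (Nat.le_div_iff_mul_le p0).2 hN
  have m2 : N₂ * N₃ * m ≤ ρ := hm ▸ Nat.mul_div_le _ _
  have m3 : ρ ≤ 2 * (N₂ * N₃ * m) := by
    have := Nat.lt_mul_div_succ ρ p0
    rw [← hm, mul_add, mul_one] at this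
    have := Nat.le_mul_of_pos_right (N₂ * N₃) (show 0 < m by omega)
    omega
  have m4 : 16 * m ≤ N₃ * m := Nat.mul_le_mul_right _ n3
  have em : ((N₃ * m : ℕ) : ℝ) = N₃ * m := by push_cast; rfl
  have m6 : N₂ * (N₃ * m) ≤ ρ := by rwa [← mul_assoc]
  generalize N₃ * m = t at m4 em m6
  have m5 : 100 * t ≤ N₂ * t := Nat.mul_le_mul_right _ n2
  rcases u0.eq_or_lt with u1 | u1
  · intro p hp
    have := GeoA.zd_tri p (rd ν ρ) 0
    have := zd_rd hν ρ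
    have := Nat.mul_le_mul_right ρ (show 8 ≤ Q * 8 by omega)
    rw [← u1, mul_zero]
    exact (hW p (by omega) (not_not.1 (deep hν hS hy hy' (d := 0) (ρ := ρ) (by omega)
      (by rwa [zero_add]) p (zd_self p).le))).1
  have a1 : In (fun v => v ∉ S) (2 * t) v := fun x hx ho => by
    have b0' : zd (x - v) 0 ≤ 2 * t := by rwa [← zd_sub]
    have b1 := H₁ M I _ (ρ / 4) φ _ _ {p | x + p ∈ S} ν (K * U v)
      (pp_shift h (c := x - v) (by omega)) hν (epi_shift hS x) (fun p hp => by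
        have := B1a1.zd_add_le x p
        have := GeoA.zd_tri x v 0
        rw [ez, ez, ← add_assoc, add_sub_cancel]
        exact hI _ (by omega)) (by simpa using ho) (fun p hp => hK' _ (by
          have := B1a1.zd_add_le (x - v) p
          omega)) (2 * t) (by omega) (by omega) (v - x) (by rwa [← zd_sub, GeoA.zd_comm])
    rw [show v + (x - v + (v - x)) = v by abel] at b1
    have b2 : ((2 * t : ℕ) : ℝ) / (ρ / 4 : ℕ) ≤ 16 / N₂ := by
      rw [div_le_div_iff₀ (by exact_mod_cast (by omega)) (by linarith)]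
      exact_mod_cast (by nlinarith [show ρ ≤ 8 * (ρ / 4) by omega] : 2 * t * N₂ ≤ 16 * (ρ / 4))
    have b3 := mul_le_mul_of_nonneg_left ((Real.rpow_le_rpow (by positivity) b2 b0.le).trans n4)
      (show 0 ≤ C₁ * (K * U v) by positivity)
    have b4 : C₁ * (K * U v) * (1 / (2 * (C₁ * K))) = U v / 2 := by field_simp
    linarith
  have a2 := H₂ M I _ _ φ _ _ h (by omega) t m (K * U v) (by omega) (by omega) (by omega) (by omega)
    (fun p hp => by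
      have := B1a1.zd_add_le v p
      rw [ez]
      exact (hI _ (by omega)).2 (not_not.1 (a1 _ (by rw [zd_add_left]; omega)))) hK'
  have a3 : C₂ * (K * U v) * m / t ≤ 1 / 2 * U v := by
    have r0 : (100 : ℝ) ≤ m := by exact_mod_cast m1
    have r1 : (16 : ℝ) * m ≤ t := by exact_mod_cast m4
    rw [div_le_iff₀ (by linarith), em]
    nlinarith [mul_nonneg (mul_nonneg u0 (by linarith : (0 : ℝ) ≤ m)) (sub_nonneg.2 hN₃),
      mul_nonneg (mul_nonneg u0 (by linarith : (0 : ℝ) ≤ m)) (by linarith : (0 : ℝ) ≤ C₂ * K)]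
  rw [mul_assoc]
  refine hc S ν W y v ρ m (8 * ρ) _ hν hS hy hy' m1 (by omega) (by rw [mul_assoc]; omega)
    (by rw [mul_assoc]; omega) (by rw [mul_assoc]; omega) (by positivity)
    (fun p hp => a1 p (by omega)) (fun p hp => hW p (by rwa [mul_assoc])) fun p hp => ?_
  have := a2 (p - v) (by rw [← zd_sub]; omega)
  simp only [add_zero, add_sub_cancel] at this
  linarith

variable {M : ℕ} [NeZero M] {I : Finset (Tor M)} {z : Tor M} {a : Fin 4} {r R : ℕ} {ν : ℂ}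
  {φ : Tor M × Fin 4 → ℝ} {U W : ℤ × ℤ → ℝ} {S : Set (ℤ × ℤ)}

omit [NeZero M] in
theorem chart (h : Mk0 I r z a ν) (hr : 1 ≤ r) : ∃ S, Epi S ν (√2 / 2) ∧
    (∀ v : ℤ × ℤ, zd v 0 ≤ r → (z + prj M v ∈ I ↔ v ∈ S)) ∧ (∃ k, 0 - cn k ∈ S) ∧ 0 - cn a ∉ S := by
  obtain ⟨S, hS, hI⟩ := h.cone
  obtain ⟨k, hk⟩ := h.touch
  have cz : ∀ k, zd (0 - cn k) 0 ≤ r := fun k => by
    rw [zero_sub, zd_neg]
    exact (zd_cn k).trans hr
  have fz : ∀ k, z + prj M (0 - cn k) = z - prj M (cn k) := fun k => by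
    rw [face_eq, G.prj_zero, add_zero]
  exact ⟨S, hS, hI, ⟨k, (hI _ (cz k)).1 (by rwa [fz])⟩,
    fun c => h.rem.2 (by rw [← fz]; exact (hI _ (cz a)).2 c)⟩

theorem zd_face (k : Fin 4) : zd (0 - cn k) 0 ≤ 1 := by
  rw [zero_sub, zd_neg]
  exact zd_cn k

/-- The small scales. -/
theorem base (h : LD I z (z, a) R φ U W) (hν : ‖ν‖ = 1) (hS : Epi S ν (√2 / 2))
    (hI : ∀ v : ℤ × ℤ, zd v 0 ≤ R → (z + prj M v ∈ I ↔ v ∈ S)) {y : ℤ × ℤ} (hy : y ∈ S)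
    (hy' : zd y 0 ≤ 1) (hM : 2 * R < M) {ρ N : ℕ} (h1 : 180 ≤ ρ) (h2 : ρ ≤ N) (h4 : 18 * ρ ≤ R)
    {v : ℤ × ℤ} (hv : zd v 0 = ρ) : Dq W ν ρ ((141 * 4 ^ (40 * N))⁻¹ * U v) := by
  intro p hp
  have a1 := GeoA.zd_tri p (rd ν ρ) 0
  have a2 := zd_rd hν ρ
  have w0 := h.nn p (by omega)
  by_cases ht0 : TouchT I (z + prj M v)
  swap
  · have a3 := sub_zero_of (fun a ha => ht0 (pr_touch ha)) (h.sub v (by omega) (by
      rintro rfl; simp [zd] at hv; omega)).1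
    exact (mul_nonpos_of_nonneg_of_nonpos (by positivity) a3).trans w0
  obtain ⟨k, hk⟩ := (touch_iff _ _ _).1 ht0
  have b1 := B1a1.zd_corner v k
  have b2 := (B2a.zd_cn (le_refl (zd (v - cn k) 0)) k).2
  have b3 := h.face hM (f := v - cn k) (by rw [sub_add_cancel] at b2; omega) (by omega) hk k
  rw [sub_add_cancel] at b3
  have b4 := walk hν hS (s := 2 * ρ) (fun p hp => h.nn p (by omega))
    (fun p hp k => h.sup p (by omega) ((hI p (by omega)).2 k)) ((hI _ (by omega)).1 hk)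
    (not_not.1 (deep hν hS hy hy' (d := 0) (ρ := ρ) (by omega) (by rwa [zero_add]) p
      (zd_self p).le)) (by omega) (by omega)
  have b5 : (4 : ℝ) ^ (20 * (2 * ρ)) ≤ 4 ^ (40 * N) := pow_le_pow_right₀ (by norm_num) (by omega)
  rw [inv_mul_le_iff₀ (by positivity)]
  nlinarith [mul_le_mul_of_nonneg_right b5 w0]

theorem exists_top (U : ℤ × ℤ → ℝ) (ρ : ℕ) :
    ∃ v, zd v 0 ≤ ρ ∧ ∀ p, zd p 0 ≤ ρ → U p ≤ U v := by
  obtain ⟨v, hv, h⟩ := (HomDec.box ρ).exists_max_image U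
    ⟨0, HomDec.mem_box.2 (by simp [zd])⟩
  exact ⟨v, HomDec.mem_box.1 hv, fun p hp => h p (HomDec.mem_box.2 hp)⟩

end A

open A

theorem allM : AllM := by
  obtain ⟨Q₁, hQ₁, H₁⟩ := A.slow
  obtain ⟨Q₂, hQ₂, c₂, c0, c1, H₂⟩ := A.cmp
  obtain ⟨N, c₁, c2, H₁⟩ := H₁ c₂⁻¹ (one_le_inv_iff₀.2 ⟨c0, c1⟩)
  refine ⟨Q₁ + Q₂ + 18, 180, min c₁ (141 * 4 ^ (40 * (N + 20000)))⁻¹, by positivity, by omega,
    fun M _ I r R z a ν φ U W hm h hR hM ρ => ?_⟩
  induction ρ using Nat.strong_induction_on with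
  | _ ρ ih =>
  intro h1 h2 v hv
  rw [add_mul, add_mul] at h2
  obtain ⟨S, hS, hI, ⟨k, hk⟩, -⟩ := chart hm (by omega)
  have u0 := h.U_nn (v := v) (by omega)
  have hW : ∀ p, zd p 0 ≤ R → p ∈ S → 0 ≤ W p ∧ SupH W p := fun p hp k =>
    ⟨h.nn p (by omega), h.sup p hp ((hI p (by omega)).2 k)⟩
  by_cases h3 : ρ ≤ N + 20000
  · exact dq_mono (A.base h hm.nrm hS (fun p hp => hI p (by omega)) hk (zd_face k) hM h1 h3
      (by omega) hv) (mul_le_mul_of_nonneg_right (min_le_right _ _) u0)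
  obtain ⟨v', hv', hmax⟩ := exists_max U (ρ / 2)
  have u1 := h.U_nn (v := v') (by omega)
  rcases le_total (U v') (c₂⁻¹ * U v) with h4 | h4
  · refine dq_mono (H₁ M I z r S ν φ U W _ v ρ hm.nrm hS hI hk (zd_face k) (by omega) (by omega)
      (by omega) (by omega) (ld_pp h hM (by omega) (by omega)) (fun p hp => ?_)
      fun p hp => hW p (by omega)) (mul_le_mul_of_nonneg_right (min_le_left _ _) u0)
    have := B1a1.zd_add_le v p
    have := zd_rev v p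
    exact (h.mp (ρ / 2) _ (by omega) u1 hmax _ (by omega) (by omega)).trans h4
  · have a1 := Nat.mul_le_mul_left (Q₁ + Q₂ + 18) (Nat.div_le_self ρ 2)
    have a2 := Nat.mul_le_mul_left Q₂ (Nat.div_le_self ρ 2)
    rw [add_mul _ _ ρ, add_mul _ _ ρ] at a1
    refine dq_mono (H₂ S ν W _ (ρ / 2) ρ (ρ / 2) _ hm.nrm hS hk (zd_face k) (by omega) (by omega)
      (by omega) le_rfl (by omega) (by positivity) (fun p hp => hW p (by omega))
      (ih (ρ / 2) (by omega) (by omega) (by omega) v' hv')) ?_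
    rw [inv_mul_le_iff₀ c0] at h4
    rw [mul_left_comm]
    exact mul_le_mul_of_nonneg_left h4 (by positivity)

theorem ndM : NdM := by
  obtain ⟨Q₁, hQ₁, H₁⟩ := A.slow
  obtain ⟨Q₂, hQ₂, c₂, c0, c1, H₂⟩ := A.cmp
  obtain ⟨N, c₁, c2, H₁⟩ := H₁ c₂⁻¹ (one_le_inv_iff₀.2 ⟨c0, c1⟩)
  refine ⟨Q₁ + Q₂ + 8, N + 10000, min c₁ c₂, by positivity, by omega,
    fun M _ I r R z a ν φ U W hm h hR hM ρ γ A h2 g0 g1 hA hU s h1 hs => ?_⟩
  rw [add_mul, add_mul] at h2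
  obtain ⟨S, hS, hI, ⟨k, hk⟩, -⟩ := chart hm (by omega)
  have hW : ∀ p, zd p 0 ≤ R → p ∈ S → 0 ≤ W p ∧ SupH W p := fun p hp k =>
    ⟨h.nn p (by omega), h.sup p hp ((hI p (by omega)).2 k)⟩
  have m0 : 0 < min c₁ c₂ := by positivity
  have z0 : zd (0 : ℤ × ℤ) 0 = 0 := zd_self 0
  have u0 := U_nn h (v := 0) (by omega)
  have A0 : 0 ≤ A := (mul_nonneg g0.le u0).trans (hU 0 (by omega))
  obtain ⟨n, hn⟩ : ∃ n, ρ - s = n := ⟨_, rfl⟩
  induction n using Nat.strong_induction_on generalizing s with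
  | _ n ih =>
  have a1 := Nat.mul_le_mul_left Q₁ hs
  have a2 := Nat.mul_le_mul_left Q₂ hs
  by_cases h3 : ρ < 2 * s
  · refine ⟨c₂ * A, H₂ S ν W _ s s ρ _ hm.nrm hS hk (zd_face k) (by omega) le_rfl (by omega) hs
      (by omega) A0 (fun p hp => hW p (by omega)) hA, fun v hv => ?_⟩
    rw [mul_assoc]
    exact mul_le_mul (min_le_right _ _) (hU v (by omega))
      (mul_nonneg g0.le (U_nn h (by omega))) c0.le
  obtain ⟨A', b1, b2⟩ := ih (ρ - 2 * s) (by omega) (2 * s) (by omega) (by omega) rfl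
  obtain ⟨v, hv, hmax⟩ := exists_top U (4 * s)
  obtain ⟨v', hv', hmax'⟩ := exists_top U (4 * (2 * s))
  have u1 := U_nn h (v := v) (by omega)
  rcases le_total (U v') (c₂⁻¹ * U v) with h4 | h4
  · refine ⟨c₁ * U v, H₁ M I z r S ν φ U W _ v s hm.nrm hS hI hk (zd_face k) (by omega) (by omega)
      (by omega) hv (pp_shift h (by omega)) (fun p hp => (hmax' _ ?_).trans h4)
      fun p hp => hW p (by omega), fun p hp => ?_⟩
    · have := B1a1.zd_add_le v p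
      omega
    · exact mul_le_mul ((mul_le_of_le_one_right m0.le g1).trans (min_le_left _ _)) (hmax p hp)
        (U_nn h (by omega)) c2.le
  · have b3 := b2 v' hv'
    refine ⟨c₂ * A', H₂ S ν W _ s s (2 * s) _ hm.nrm hS hk (zd_face k) (by omega) le_rfl (by omega)
      (by omega) (by omega) (le_trans (mul_nonneg (by positivity) (U_nn h (by omega))) b3)
      (fun p hp => hW p (by omega)) b1, fun p hp => ?_⟩
    rw [inv_mul_le_iff₀ c0] at h4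
    refine le_trans ?_ (mul_le_mul_of_nonneg_left b3 c0.le)
    rw [mul_left_comm]
    exact mul_le_mul_of_nonneg_left ((hmax p hp).trans h4) (by positivity)

end Vale.Agent.P144C
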