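import Vale.Agent.P144C.A.Fin
import Vale.Agent.P144C.Dom
import Vale.Agent.P144C.GeoL2
import Vale.Agent.P144C.GeoT2
import Vale.Agent.P144C.P.Pw
import Vale.Agent.P144C.G.Mark

/-!
Universality with sign changes at corners.
-/

namespace Vale.Agent.P144C.A

theorem domC {K : ℝ} (hK : K < 1) : DomC K :=
  domC' latK P.pwM (geoL2 G.markM) (geoT2 G.markM) hK

end Vale.Agent.P144C.A
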