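import Vale.Agent.P144C.A.All
import Vale.Agent.P144D.I.N3.Ref
import Vale.Agent.P144D.I.Gks.Gap
import Vale.Agent.P144D.I.T.GUp

/-!
A nondegenerate positive solution near a mark.
-/

namespace Vale.Agent.P144C

open Finset Matrix Vale.Agent.P144Z Vale.Agent.P144L P144L.G P144L.D IN5a

namespace A

theorem cross {G T : ℤ × ℤ → Prop} {p p' : ℤ × ℤ} (h : GeoA.Rch G p p') (hp : ¬ T p) (hp' : T p') :
    ∃ u b, G (u + st4 b) ∧ ¬ T u ∧ T (u + st4 b) := by
  induction h with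
  | refl => exact absurd hp' hp
  | @tail u w _ k ih =>
    by_cases hu : T u
    · exact ih hu
    · obtain ⟨-, k1, rfl | rfl | rfl | rfl⟩ := k
      exacts [⟨u, 0, k1, hu, hp'⟩, ⟨u, 1, k1, hu, hp'⟩, ⟨u, 2, k1, hu, hp'⟩, ⟨u, 3, k1, hu, hp'⟩]

/-- A second vertex on the boundary. -/
theorem second {S : Set (ℤ × ℤ)} {ν : ℂ} (hν : ‖ν‖ = 1) (hS : Epi S ν (√2 / 2)) {y y' : ℤ × ℤ}
    (hy : y ∈ S) (hy' : y' ∉ S) (h1 : zd y 0 ≤ 1) (h2 : zd y' 0 ≤ 1) {D : ℕ} (hD : 4 ≤ D) :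
    ∃ x a, D ≤ zd x 0 ∧ zd x 0 ≤ 2 * D ∧ (x - cn (a - 1) ∉ S ∧ x - cn a ∉ S) ∧
      ∃ k, x - cn k ∈ S := by
  obtain ⟨e, e', he, hc⟩ := oct hν
  have up : ∀ q ∈ S, ∀ w, Oc e e' (w - q) → w ∈ S := fun q hq w hw => by
    simpa using hS q hq _ (hc _ hw)
  obtain ⟨p, hp⟩ : ∃ p, p = -(((2 * D : ℕ) : ℤ) • e + (D : ℤ) • e') := ⟨_, rfl⟩
  have a1 : GeoA.Rch (fun v => D ≤ zd v 0 ∧ zd v 0 ≤ 2 * D) p
      (p + ((2 * D : ℕ) : ℤ) • e' + ((4 * D : ℕ) : ℤ) • e) := by
    refine (rch_line ?_ _ fun k hk => ?_).trans (rch_line ?_ _ fun k hk => ?_) <;>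
      rcases he with ⟨rfl | rfl, rfl | rfl⟩ | ⟨rfl | rfl, rfl | rfl⟩ <;> simp [hp, zd] <;> omega
  obtain ⟨u, b, b1, b2, b3⟩ := cross (T := fun v => ∃ k, v - cn k ∈ S) a1
    (fun ⟨k, hk⟩ => hy' (up _ hk _ (by
      have := zd_cn k
      generalize cn k = c at this
      rcases he with ⟨rfl | rfl, rfl | rfl⟩ | ⟨rfl | rfl, rfl | rfl⟩ <;>
        simp [hp, zd, Oc] at h2 this ⊢ <;> omega)))
    ⟨0, up y hy _ (by
      rw [B1a1.sub_cn_zero]
      rcases he with ⟨rfl | rfl, rfl | rfl⟩ | ⟨rfl | rfl, rfl | rfl⟩ <;>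
        simp [hp, zd, Oc] at h1 ⊢ <;> omega)⟩
  refine ⟨u + st4 b, b + 2, b1.1, b1.2, ?_, b3⟩
  rw [(st4_cn u b).1, (st4_cn u b).2]
  exact ⟨fun k => b2 ⟨_, k⟩, fun k => b2 ⟨_, k⟩⟩

variable {M : ℕ} [NeZero M] {I : Finset (Tor M)} {z : Tor M} {a : Fin 4} {r R : ℕ} {ν : ℂ}
  {φ : Tor M × Fin 4 → ℝ} {U W : ℤ × ℤ → ℝ}

omit [NeZero M] in
theorem rem0 (h : Mk0 I r z a ν) : pwI I (hedge (z, a)) = 0 := by
  have := IN3.pw_hedge I z 0 a
  rw [face_eq, face_eq, G.prj_zero, add_zero, if_neg (not_or.2 h.rem)] at this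
  exact this

/-- The superharmonic function is positive. -/
theorem pos (h : LD I z (z, a) R φ U W) (hm : Mk0 I r z a ν) (hR : R ≤ r) (hM : 2 * R < M) {s : ℕ}
    (h1 : 6 ≤ s) (h2 : 9 * s ≤ R) {p : ℤ × ℤ} (hp : zd p 0 ≤ s) (hp' : z + prj M p ∈ I) :
    0 < W p := by
  obtain ⟨S, hS, hI, ⟨k, hk⟩, -⟩ := chart hm (by omega)
  by_contra hc
  have w0 : ∀ f, zd f 0 ≤ 6 → W f = 0 := fun f hf => by
    by_cases k : f ∈ S
    · have a1 := walk hm.nrm hS (s := s) (fun p hp => h.nn p (by omega))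
        (fun p hp k => h.sup p (by omega) ((hI p (by omega)).2 k)) k ((hI p (by omega)).1 hp')
        (by omega) hp
      exact le_antisymm (a1.trans (mul_nonpos_of_nonneg_of_nonpos (by positivity) (not_lt.1 hc)))
        (h.nn f (by omega))
    · exact h.zero f (by omega) fun k' => k ((hI f (by omega)).1 k')
  have c0 : ∀ v, zd v 0 ≤ 5 → U v ≤ 0 → ∀ j, chi φ (z + prj M v) j = 0 := fun v hv hu j => by
    have a1 := h.dif v j (by omega)
    rw [w0 _ (by have := B1a1.zd_corner v j; omega)] at a1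
    exact pow_eq_zero_iff two_ne_zero |>.1 (le_antisymm (by linarith) (sq_nonneg _))
  obtain ⟨e, e', he, hc⟩ := oct hm.nrm
  have up : ∀ t : ℕ, 0 - cn k + t • e ∈ S := fun t => hS _ hk _ (hc _ (by
    rcases he with ⟨rfl | rfl, rfl | rfl⟩ | ⟨rfl | rfl, rfl | rfl⟩ <;> simp [Oc]))
  obtain ⟨b, rfl⟩ := (un_st he).1
  have he : ∀ v j, zd v 0 ≤ 5 → pwI I (hedge (z + prj M v, j)) = 1 →
      IN3.HE 1 (fun v => chi φ (z + prj M v)) v j := fun v j hv hj => by
    have a1 := IN3.two_Dm (pwI I) φ (z + prj M v) j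
    rw [h.eq _ (B2a.td_le z (by omega)), Pi.single_eq_of_ne (fun k => by
      rw [k, rem0 hm] at hj
      exact zero_ne_one hj), hj, ez] at a1
    unfold IN3.HE
    linear_combination -a1
  have key : ∀ t, t ≤ 4 → U ((4 - t) • st4 b) ≤ 0 := fun t => by
    induction t with
    | zero =>
      intro _
      have a0 : 4 • st4 b - cn k = 0 - cn k + 4 • st4 b := by abel
      have a1 := B1a1.zd_corner (4 • st4 b) k
      have a2 := (B2a.zd_cn (le_refl (zd (4 • st4 b - cn k) 0)) k).2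
      rw [sub_add_cancel] at a2
      rw [zd_smul] at a1 a2
      have a3 := h.face hM (f := 4 • st4 b - cn k) (by omega) (by omega)
        ((hI _ (by omega)).2 (a0 ▸ up 4)) k
      rwa [sub_add_cancel, w0 _ (by omega), mul_zero] at a3
    | succ t ih =>
      intro ht
      obtain ⟨n, hn⟩ : ∃ n, 4 - (t + 1) = n := ⟨_, rfl⟩
      have a0 := ih (by omega)
      rw [show 4 - t = n + 1 by omega, succ_nsmul] at a0
      rw [hn]
      have z1 := zd_smul n b
      have z2 := B1b.zd_st4 (n • st4 b) b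
      have z3 := fun j => B1a1.zd_corner (n • st4 b) j
      have a1 : (rg I).pr z (n • st4 b) b := by
        rw [pr_iff, hI _ (by have := z3 (b - 1); omega), hI _ (by have := z3 b; omega)]
        have b0 := up n
        have b1 := up (n + 1)
        rw [show 0 - cn k + n • st4 b = n • st4 b - cn k by abel] at b0
        rw [succ_nsmul, show 0 - cn k + (n • st4 b + st4 b) = n • st4 b + st4 b - cn k by abel] at b1
        obtain rfl | rfl | rfl | rfl := (by decide :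
          ∀ k b : Fin 4, k = b - 1 ∨ k = b ∨ k = b + 2 - 1 ∨ k = b + 2) k b
        exacts [.inl b0, .inr b0, .inr ((st4_cn _ b).1 ▸ b1), .inl ((st4_cn _ b).2 ▸ b1)]
      have a2 := IN3.ed_of (he (n • st4 b) b (by omega) (by rw [IN3.pw_hedge, if_pos ((pr_iff _ _ _ _).1 a1)]))
        (he (n • st4 b + st4 b) (b + 2) (by omega) (by
          rw [IN3.pw_hedge, if_pos ((pr_iff _ _ _ _).1 ((pr_symm I z _ b).2 a1))]))
      simp only [c0 (n • st4 b + st4 b) (by omega) a0, B2a.Ed, mul_zero, sub_self, add_zero, zero_sub, neg_eq_zero,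
        mul_one, mul_eq_zero, B1a1.tc_pos'.ne', false_or] at a2
      have a3 := h.dif (n • st4 b) b (by omega)
      rw [w0 _ (by have := z3 b; omega), show chi φ (z + prj M (n • st4 b)) b = 0 by
        linarith [a2.1, a2.2]] at a3
      linarith
  have a1 := c0 0 (by simp [zd]) (by simpa using key 4 le_rfl)
  have a2 := IN3.two_Dm (pwI I) φ z a
  rw [G.prj_zero, add_zero] at a1
  rw [h.eq _ (by simp [tdist_self]), Pi.single_eq_same, rem0 hm, a1, a1] at a2
  norm_num at a2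

end A

open A

theorem refM (hM : ModM) : RefM := by
  intro N n
  obtain ⟨N', Q₁, hQ₁, H₁⟩ := hM N
  obtain ⟨Q₂, ρ₀, c, c0, hQ₂, H₂⟩ := allM
  obtain ⟨Q₃, hQ₃, H₃⟩ := chn
  obtain ⟨c', c1, -, H₃⟩ := H₃ (200 * (2 * n + 3)) (by omega)
  obtain ⟨Γ, -, hG⟩ := gapU
  obtain ⟨Q, hQ⟩ : ∃ Q, Q = Q₂ + Q₃ * (2 * (2 * n + 3)) + 3 * n + 3 := ⟨_, rfl⟩
  refine ⟨Q₁ * (16 * Q + 2 * n + 3), ρ₀ + 10000, min (c' * c) 1, by positivity, min_le_right _ _,
    fun M _ I r z a ν hm hM ρ h1 h2 => ?_⟩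
  obtain ⟨q, hq⟩ : ∃ q, q = Q * ρ := ⟨_, rfl⟩
  obtain ⟨m, hm'⟩ : ∃ m, m = n * ρ := ⟨_, rfl⟩
  have q1 : q = Q₂ * ρ + Q₃ * (2 * (2 * m + 3 * ρ)) + 3 * m + 3 * ρ := by rw [hq, hQ, hm']; ring
  have q2 : 16 * q + 2 * m + 3 * ρ ≤ r / Q₁ := by
    rw [Nat.le_div_iff_mul_le hQ₁, hq, hm']
    exact le_of_eq_of_le (by ring) h2
  have q3 := Nat.div_le_self r Q₁
  have q4 : Q₁ ≤ r := by
    by_contra k
    rw [Nat.div_eq_of_lt (by omega)] at q2
    omega
  obtain ⟨I', -, i1, i2, i3, i4⟩ := H₁ M I r z a ν hm q4 hM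
  obtain ⟨S, hS, hI, ⟨k, hk⟩, ho⟩ := chart hm.toMk0 (by omega)
  obtain ⟨x, a', x1, x2, x3, k', x4⟩ := second hm.nrm hS hk ho (zd_face k) (zd_face a)
    (D := m + ρ) (by omega)
  have cx := fun j => B1a1.zd_corner x j
  have mk : Mk0 I (15 * q) (z + prj M x) a' ν := ⟨hm.nrm, ⟨_, epi_shift hS x, fun v hv => by
      have := B1a1.zd_add_le x v
      rw [ez]
      exact hI _ (by omega)⟩, by
      rw [← face_eq, ← face_eq, hI _ (by have := cx (a' - 1); omega), hI _ (by have := cx a'; omega)]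
      exact x3, (touch_iff _ _ _).2 ⟨k', (hI _ (by have := cx k'; omega)).2 x4⟩⟩
  have ex : prj M (lft z + x) = z + prj M x := by rw [G.prj_add, prj_lft]
  have sd : ∀ y, tdist y (z + prj M x) ≤ 16 * q → ∀ j,
      (y - prj M (cn j) ∈ I' ↔ y - prj M (cn j) ∈ I) := fun y hy j => i4 _ (by
    have b1 := tdist_triangle (y - prj M (cn j)) y z
    have b2 := tdist_triangle y (z + prj M x) z
    have b3 := B2a.td_le z (le_refl (zd x 0))
    have b4 := B2a.td_le y (zd_face j)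
    rw [face_eq, G.prj_zero, add_zero] at b4
    omega)
  have box : ∀ f ∈ I', tdist f 0 ≤ tdist z 0 + r := fun f hf => by
    have := tdist_triangle f z 0
    have := i1 f hf
    omega
  have hx : zd (lft z + x) 0 ≤ tdist z 0 + r + 1 := by
    have := B1a1.zd_add_le (lft z) x
    have := B2a.zd_lft z 0
    rw [sub_zero] at this
    omega
  obtain ⟨φ, hφ⟩ := IT.exists_sol (IT.inj_of_gap
    (hG M I' _ N' (by omega) (by omega) box i3)) (Pi.single (prj M (lft z + x), a') 1)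
  obtain ⟨u, w, u1, w1, -, u2⟩ := srcStmt M I' _ (lft z + x) a' φ box i2 hM (by omega) hx (by
    have b1 := IN3.pw_hedge I' (z + prj M x) 0 a'
    rw [face_eq, face_eq, G.prj_zero, add_zero, if_neg (by
      rw [sd _ (by simp [tdist_self]), sd _ (by simp [tdist_self])]
      exact not_or.2 mk.rem)] at b1
    rwa [ex]) hφ
  obtain ⟨φ', U, W, h, -⟩ := exists_LD (Ia := I) (q := q) box hx
    (fun y hy _ j => sd y (ex ▸ hy) j) (ex ▸ mk.touch) (by omega) (by omega) hM hφ u1 w1 u2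
  rw [ex] at h
  obtain ⟨v', hv', hmax⟩ := exists_max U ρ
  have u0 := h.U_nn (v := v') (by omega)
  have mp := h.mp ρ _ (by omega) u0 hmax
  have nx := zd_neg x
  have a1 : PP I z m φ' (fun v => U (-x + v)) fun v => W (-x + v) := by
    have := ld_pp h (by omega) (c := -x) (r := m) (by omega) (by omega)
    rwa [ez, add_neg_cancel, G.prj_zero, add_zero] at this
  have a2 : 0 < U v' := by
    obtain ⟨y, b, y1, y2, -, j, y3⟩ := second hm.nrm (epi_shift hS x) (y := 0 - cn k')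
      (y' := 0 - cn a') (by simpa [sub_eq_add_neg] using x4) (by simpa [sub_eq_add_neg] using x3.2)
      (zd_face _) (zd_face _) (D := ρ) (by omega)
    have b1 := B1a1.zd_corner y j
    have b2 := B1a1.zd_add_le x (y - cn j)
    exact ((pos h mk le_rfl (by omega) (s := 2 * ρ + 1) (by omega) (by omega) (by omega)
      (by rw [ez]; exact (hI _ (by omega)).2 y3)).trans_le (h.W_le (by omega) j)).trans_le
      (mp y y1 (by omega))
  have a3 := H₂ M I _ _ _ a' ν φ' U W mk h le_rfl (by omega) ρ (by omega) (by omega) v' hv'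
  have d1 : 200 * (2 * n + 3) * (ρ / 100) ≤ 2 * (2 * m + 3 * ρ) := by
    rw [hm']
    nlinarith [Nat.mul_le_mul_left (2 * n + 3) (show 200 * (ρ / 100) ≤ 2 * ρ by omega)]
  have d2 : 2 * m + 3 * ρ ≤ 200 * (2 * n + 3) * (ρ / 100) := by
    rw [hm']
    nlinarith [Nat.mul_le_mul_left (2 * n + 3) (show ρ ≤ 200 * (ρ / 100) by omega)]
  have a4 := H₃ S ν (fun v => W (-x + v)) _ (x + rd ν ρ) ρ (ρ / 100) _ (c * U v') hm.nrm hS hk
    (zd_face k) (by omega) (by omega) (by omega) (by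
      have := B1a1.zd_add_le x (rd ν ρ)
      have := zd_rd hm.nrm ρ
      omega) d1 (by positivity)
    (deep hm.nrm hS (x := x) x4 (by have := zd_cn k'; simpa [zd] using this) (ρ := ρ) (by omega)
      (by simp [zd])) (fun p hp k => by
      have := B1a1.zd_add_le (-x) p
      refine ⟨h.nn _ (by omega), ?_⟩
      simpa only [SupH, add_assoc] using h.sup (-x + p) (by omega) (by
        rw [ez, add_neg_cancel_left]
        exact (hI p (by omega)).2 k)) fun p hp => a3 _ (by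
      rw [zd_sub, show -x + p - rd ν ρ = p - (x + rd ν ρ) by abel, ← zd_sub]
      omega)
  rw [← hm']
  refine ⟨φ', _, _, min (c' * c) 1 * U v', by positivity, a1, dq_mono a4 ?_, fun v hv => ?_⟩
  · rw [← mul_assoc]
    exact mul_le_mul_of_nonneg_right (min_le_left _ _) u0
  · have := B1a1.zd_add_le (-x) v
    have := zd_rev (-x) v
    exact mul_le_mul_of_nonneg_left (mp _ (by omega) (by omega)) (by positivity)

end Vale.Agent.P144C
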