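import Vale.Agent.P144C.A.LB
import Vale.Agent.P144C.A.Ref
import Vale.Agent.P144C.O.Hom
import Vale.Agent.P144C.O.One
import Vale.Agent.P144C.N.Nrm
import Vale.Agent.P144C.P.Mas
import Vale.Agent.P144C.G.Mod
import Vale.Agent.P144C.MkStmt2
import Vale.Agent.P144C.L.Lat
import Vale.Agent.P144C.PathM

/-!
Universality on the lattice for the marks at corners.
-/

namespace Vale.Agent.P144C.A

theorem homM : HomM := O.homM_of G.modM (O.oneM N.nrmM) P.lowM N.nrmM ndM (refM G.modM)

theorem posV : PosV := O.posV_of G.modM (O.oneM N.nrmM) P.lowM N.nrmM ndM (refM G.modM)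

theorem latK : LatK2 := latK2 (mkStmt2 homM) (lb2 posV pathM)

end Vale.Agent.P144C.A
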