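import Vale.Agent.P144C.Defs
import Vale.Agent.P144L.D.Deep

/-!
Charts, deep squares, Harnack chains and walks near a mark.
-/

namespace Vale.Agent.P144C.A

open Finset Vale.Agent.P144Z Vale.Agent.P144L P144L.G P144L.D

variable {S : Set (ℤ × ℤ)} {ν : ℂ} {W : ℤ × ℤ → ℝ}

theorem ou (hν : ‖ν‖ = 1) (hS : Epi S ν (√2 / 2)) : Ou (fun v => v ∉ S) ν :=
  ⟨hν, fun v c hc o k => o (hS v k c hc)⟩

theorem epi_shift (hS : Epi S ν (√2 / 2)) (c : ℤ × ℤ) : Epi {v | c + v ∈ S} ν (√2 / 2) :=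
  fun u hu v hv => by
    have := hS _ hu v hv
    rwa [add_assoc] at this

theorem dq_mono {ρ : ℕ} {A A' : ℝ} (h : Dq W ν ρ A) (hA : A' ≤ A) : Dq W ν ρ A' :=
  fun v hv => hA.trans (h v hv)

/-- The deep square is deep. -/
theorem deep (hν : ‖ν‖ = 1) (hS : Epi S ν (√2 / 2)) {x y p : ℤ × ℤ} (hy : y ∈ S) (hx : zd y x ≤ 1)
    {ρ d : ℕ} (hd : 90 * d + 180 ≤ ρ) (hp : 10 * zd p (x + rd ν ρ) ≤ ρ) :
    In (fun v => v ∉ S) d p := fun v hv => by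
  have a1 : zd (v - rd ν ρ - y) 0 ≤ ρ / 10 + d + 1 := by
    have b1 := GeoA.zd_tri v p (x + rd ν ρ)
    have b2 := B1b.zd_sub (v - (x + rd ν ρ)) (y - x)
    rw [← zd_sub v (x + _), ← zd_sub y x,
      show v - (x + rd ν ρ) - (y - x) = v - rd ν ρ - y by abel] at b2
    omega
  have a2 := hS y hy _ (cn_rd hν (t := ρ) (by omega) a1)
  rw [show y + (rd ν ρ + (v - rd ν ρ - y)) = v by abel] at a2
  exact not_not.2 a2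

/-- Chains that end in the deep square. -/
theorem chn : ∃ Q : ℕ, 1 ≤ Q ∧ ∀ n : ℕ, 1 ≤ n → ∃ c > (0 : ℝ), c ≤ 1 ∧ ∀ (S : Set (ℤ × ℤ)) (ν : ℂ)
    (W : ℤ × ℤ → ℝ) (y x : ℤ × ℤ) (ρ d T : ℕ) (A : ℝ), ‖ν‖ = 1 → Epi S ν (√2 / 2) → y ∈ S →
    zd y 0 ≤ 1 → 100 ≤ d → 100 * d ≤ ρ → 2 * ρ ≤ n * d → zd x 0 ≤ n * d → n * d ≤ T → 0 ≤ A →
    In (fun v => v ∉ S) d x → (∀ p, zd p 0 ≤ Q * T → p ∈ S → 0 ≤ W p ∧ SupH W p) →
    (∀ p, 10 * zd p x ≤ d → A ≤ W p) → Dq W ν ρ (c * A) := by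
  obtain ⟨Q, hQ, H⟩ := chnL
  refine ⟨Q, hQ, fun n hn => ?_⟩
  obtain ⟨c, c0, hc⟩ := H n hn
  refine ⟨min c 1, by positivity, min_le_right _ _, fun S ν W y x ρ d T A hν hS hy hy' h1 h2 h3 h4
    h5 hA hx hW hl p hp => ?_⟩
  refine (mul_le_mul_of_nonneg_right (min_le_left _ _) hA).trans (hc _ ν (ou hν hS) 0 x p d W A h1 hA
    h4 ?_ hx (deep hν hS hy hy' (ρ := ρ) (by omega) (by rwa [zero_add]))
    (fun v hv k => hW v (hv.trans (Nat.mul_le_mul_left Q h5)) (not_not.1 k)) hl)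
  have := GeoA.zd_tri p (rd ν ρ) 0
  have := zd_rd hν ρ
  omega

/-- Comparable scales. -/
theorem cmp : ∃ Q : ℕ, 1 ≤ Q ∧ ∃ c > (0 : ℝ), c ≤ 1 ∧ ∀ (S : Set (ℤ × ℤ)) (ν : ℂ)
    (W : ℤ × ℤ → ℝ) (y : ℤ × ℤ) (m ρ ρ' : ℕ) (A : ℝ), ‖ν‖ = 1 → Epi S ν (√2 / 2) → y ∈ S →
    zd y 0 ≤ 1 → 10000 ≤ m → m ≤ ρ → ρ ≤ 3 * m → m ≤ ρ' → ρ' ≤ 3 * m → 0 ≤ A →
    (∀ p, zd p 0 ≤ Q * m → p ∈ S → 0 ≤ W p ∧ SupH W p) → Dq W ν ρ' A → Dq W ν ρ (c * A) := by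
  obtain ⟨Q, hQ, H⟩ := chn
  obtain ⟨c, c0, c1, hc⟩ := H 1200 (by norm_num)
  refine ⟨Q * 12, by omega, c, c0, c1, fun S ν W y m ρ ρ' A hν hS hy hy' h1 h2 h3 h4 h5 hA hW hl =>
    hc S ν W y (rd ν ρ') ρ (m / 100) (12 * m) A hν hS hy hy' (by omega) (by omega) (by omega) ?_
      (by omega) hA (deep hν hS hy hy' (ρ := ρ') (by omega) (by simp [zd]))
      (fun p hp => hW p (by rwa [mul_assoc])) fun p hp => hl p (by omega)⟩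
  have := zd_rd hν ρ'
  omega

theorem line {T : ℕ} (h0 : ∀ p, zd p 0 ≤ T + 1 → 0 ≤ W p) (hs : ∀ p, zd p 0 ≤ T → p ∈ S → SupH W p)
    {p e : ℤ × ℤ} (he : ∃ a, e = st4 a) (n : ℕ)
    (h : ∀ k : ℕ, k ≤ n → p + (k : ℤ) • e ∈ S ∧ zd (p + (k : ℤ) • e) 0 ≤ T) :
    W p ≤ 4 ^ n * W (p + (n : ℤ) • e) ∧ W (p + (n : ℤ) • e) ≤ 4 ^ n * W p := by
  obtain ⟨a, rfl⟩ := he
  have nb : ∀ k : ℕ, k ≤ n → ∀ b, W (p + (k : ℤ) • st4 a + st4 b) ≤ 4 * W (p + (k : ℤ) • st4 a) :=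
    fun k hk => IN5a.nb_le (hs _ (h k hk).2 (h k hk).1) fun b => h0 _ (by
      have := B1b.zd_st4 (p + (k : ℤ) • st4 a) b
      have := (h k hk).2
      omega)
  induction n with
  | zero => simp
  | succ n ih =>
    obtain ⟨i1, i2⟩ := ih (fun k hk => h k (by omega)) fun k hk => nb k (by omega)
    have a1 := nb n (by omega) a
    have a2 := nb (n + 1) le_rfl (a + 2)
    rw [Nat.cast_succ, add_smul, one_smul, ← add_assoc] at a2 ⊢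
    rw [st4_two] at a2
    have p0 : (0 : ℝ) ≤ 4 ^ n := by positivity
    rw [pow_succ]
    constructor <;> nlinarith

theorem un_st {e e' : ℤ × ℤ} (he : Un e e') : (∃ a, e = st4 a) ∧ ∃ a, e' = st4 a := by
  rcases he with ⟨rfl | rfl, rfl | rfl⟩ | ⟨rfl | rfl, rfl | rfl⟩ <;> decide

/-- The walk between two inner points. -/
theorem walk (hν : ‖ν‖ = 1) (hS : Epi S ν (√2 / 2)) {s : ℕ} (h0 : ∀ p, zd p 0 ≤ 9 * s + 1 → 0 ≤ W p)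
    (hs : ∀ p, zd p 0 ≤ 9 * s → p ∈ S → SupH W p) {p p' : ℤ × ℤ} (hp : p ∈ S) (hp' : p' ∈ S)
    (h1 : zd p 0 ≤ s) (h2 : zd p' 0 ≤ s) : W p ≤ 4 ^ (20 * s) * W p' := by
  obtain ⟨e, e', he, hc⟩ := oct hν
  have up : ∀ q ∈ S, ∀ w, Oc e e' (w - q) → w ∈ S := fun q hq w hw => by
    simpa using hS q hq _ (hc _ hw)
  have move : ∀ q ∈ S, zd q 0 ≤ s → ∀ i j : ℕ, j ≤ i → i ≤ 8 * s →
      W q ≤ 4 ^ (i + j) * W (q + (i : ℤ) • e + (j : ℤ) • e') ∧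
        W (q + (i : ℤ) • e + (j : ℤ) • e') ≤ 4 ^ (i + j) * W q := fun q hq hq' i j hj hi => by
    have a1 := line h0 hs (p := q) (un_st he).1 i fun k hk => ⟨up q hq _ ?_, ?_⟩
    have a2 := line h0 hs (p := q + (i : ℤ) • e) (un_st he).2 j fun k hk => ⟨up q hq _ ?_, ?_⟩
    · have p0 : (0 : ℝ) ≤ 4 ^ i := by positivity
      have p1 : (0 : ℝ) ≤ 4 ^ j := by positivity
      rw [pow_add]
      constructor <;> nlinarith [mul_le_mul_of_nonneg_left a2.1 p0, mul_le_mul_of_nonneg_left a1.2 p1]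
    all_goals
      rcases he with ⟨rfl | rfl, rfl | rfl⟩ | ⟨rfl | rfl, rfl | rfl⟩ <;>
        simp [zd, Oc] at hq' ⊢ <;> omega
  obtain ⟨i, j, a1, a2, a3, a4⟩ : ∃ i j : ℕ, j ≤ i ∧ i ≤ 8 * s ∧ j ≤ 4 * s ∧
      p' + (i : ℤ) • e + (j : ℤ) • e' = p + ((6 * s : ℕ) : ℤ) • e + ((2 * s : ℕ) : ℤ) • e' := by
    refine ⟨(6 * s - (e.1 * (p'.1 - p.1) + e.2 * (p'.2 - p.2))).toNat,
      (2 * s - (e'.1 * (p'.1 - p.1) + e'.2 * (p'.2 - p.2))).toNat, ?_⟩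
    rcases he with ⟨rfl | rfl, rfl | rfl⟩ | ⟨rfl | rfl, rfl | rfl⟩ <;>
      simp [zd, Prod.ext_iff] at h1 h2 ⊢ <;> omega
  have b1 := (move p hp h1 (6 * s) (2 * s) (by omega) (by omega)).1
  have b2 := (move p' hp' h2 i j a1 a2).2
  rw [a4] at b2
  have b3 : (4 : ℝ) ^ (i + j) ≤ 4 ^ (12 * s) := pow_le_pow_right₀ (by norm_num) (by omega)
  have b4 := mul_le_mul_of_nonneg_right b3 (h0 p' (by omega))
  rw [show 20 * s = 6 * s + 2 * s + 12 * s by ring, pow_add _ _ (12 * s), mul_assoc]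
  exact b1.trans (mul_le_mul_of_nonneg_left (b2.trans b4) (by positivity))

end Vale.Agent.P144C.A
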