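import Vale.Agent.P144C.A.Near
import Vale.Agent.P144C.L.Conv
import Vale.Agent.P144D.I.U.LB

/-!
The lower bound on the partition function with sign changes at corners.
-/

namespace Vale.Agent.P144C

open Finset Matrix Vale.Agent.P144Z Vale.Agent.P144L P144L.G

namespace A

open IN5b Classical in
/-- The Green function between two far marks of a corridor is bounded below. -/
theorem two (hP : PosV) (N₀ : ℕ) {c : ℝ} (hc : 1 ≤ c) {L : ℕ} (hL : 8 ≤ L) : ∃ C₀ : ℕ, ∀ N : ℕ,
    ∃ c₀ > (0 : ℝ), ∃ J₀ : ℕ, ∀ J ≥ J₀, ∀ (M : ℕ) [NeZero M] (I Ia : Finset (Tor M)) (T q : ℕ)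
    (a b : Tor M) (ea eb : Fin 4) (α β : ℂ) ua ub (νa νb : ℕ → ℝ) (η : ℝ),
    Corr I T q N (a + prj M (rd α (8 * q))) (b + prj M (rd β (8 * q))) → I ⊆ Ia →
    Side I Ia a (16 * q) → Side I Ia b (16 * q) → MkT2 Ia N₀ (16 * q) a ea α →
    MkT2 Ia N₀ (16 * q) b eb β → 16 * q < tdist a b → C₀ * sc L J ≤ q → q ≤ T → T ≤ N * sc L J →
    128 * T ≤ M → MkCh2 (pwI Ia) L J (a, ea) ua νa c η → MkCh2 (pwI Ia) L J (b, eb) ub νb c η →
    ∀ φ, Dm (pwI I) *ᵥ φ = Pi.single (a, ea) 1 → c₀ * νa J * νb J ≤ |φ (b, eb)| := by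
  obtain ⟨CA, hA⟩ := nearA hc hL
  obtain ⟨CB, hB⟩ := nearB hP N₀ hc hL
  obtain ⟨c5, c50, H5⟩ := harnStmt 5
  obtain ⟨Γ, G1, hG⟩ := gapU
  refine ⟨CA + CB + 3, fun N => ?_⟩
  obtain ⟨cA, cA0, JA, hA⟩ := hA N
  set c' := (min c5 1) ^ (N + 1) * cA with hc'
  have c'0 : 0 < c' := by positivity
  obtain ⟨cB, cB0, JB, hB⟩ := hB N ((Γ * (N + 1) * N) ^ 2 / c')
  refine ⟨√(cB * c'), by positivity, JA + JB + 2, fun J hJ M _ I Ia T q a b ea eb α β ua ub νa νb η
    hC hs sa sb ma mb ab hq hqT hT hM cha chb φ hφ => ?_⟩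
  have g1 := sc_ge (L := L) (j := J) (by omega) (by omega)
  have q1 : CA * sc L J + CB * sc L J + 3 * sc L J ≤ q := by rwa [add_mul, add_mul] at hq
  have lf : ∀ z : Tor M, Side I Ia z (16 * q) → TouchT Ia z → zd (lft z) 0 ≤ T + 1 := by
    intro z h ⟨k, hk⟩
    have := hC.box _ ((h z (by rw [tdist_self]; omega) ⟨k, hk⟩ k).2 hk)
    have := tdist_triangle z (z - prj M (cn k)) 0
    have := GeoA.tdist_le_zd z (-cn k)
    rw [IConv.prj_neg, ← sub_eq_add_neg, zd_neg0, tdist_comm] at this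
    have := IN5b.zd_cn k
    rw [IConv.zd_lft_zero]
    omega
  have xa := lf a sa ma.touch
  have xb := lf b sb mb.touch
  have gap : ∀ ψ, ψ ⬝ᵥ ψ ≤
      (Γ * (N + 1) * N * sc L J) ^ 2 * ((Dm (pwI I) *ᵥ ψ) ⬝ᵥ (Dm (pwI I) *ᵥ ψ)) := fun ψ => by
    refine (hG M I T N (by omega) (by omega) hC.box hC.tr ψ).trans
      (mul_le_mul_of_nonneg_right (pow_le_pow_left₀ (by positivity) ?_ 2)
        (E4.l2sq_univ (Dm (pwI I) *ᵥ ψ) ▸ E4.l2sq_nonneg _ _))
    rw [mul_assoc _ (N : ℝ)]
    exact mul_le_mul_of_nonneg_left (by exact_mod_cast hT) (by positivity)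
  obtain ⟨u, w, u1, w1, -, u2⟩ := srcStmt M I T (lft a) ea φ hC.box hC.conn (by omega) (by omega) xa
    (by
      have k := IN3.pw_hedge I a 0 ea
      rw [IN5a.face_eq, IN5a.face_eq, G.prj_zero, add_zero,
        if_neg (not_or.2 ⟨fun h => ma.rem.1 (hs h), fun h => ma.rem.2 (hs h)⟩)] at k
      rwa [prj_lft]) (by rwa [prj_lft])
  obtain ⟨φ', U, W, h, hW⟩ := IN5a.exists_LD (Ia := Ia) (q := q) (a₀ := ea) hC.box xa
    (by rwa [prj_lft]) (by rw [prj_lft]; exact ma.touch) (by omega) hqT (by omega)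
    (by rwa [prj_lft]) u1 w1 u2
  rw [prj_lft] at h
  have a1 := hA J (by omega) M Ia a ea α q φ' U W ua νa η h ma.toMk0 (by omega) (by omega)
    (by omega) cha
  obtain ⟨n, hn, p, p0, pn, p1, p2⟩ := hC.chain
  have pT : ∀ i ≤ n, zd (lft (p i)) 0 ≤ T := fun i hi => by
    rw [IConv.zd_lft_zero]
    exact hC.box _ (p2 i hi _ (by rw [tdist_self]; omega))
  have pe : ∀ i ≤ n, ∀ (z : Tor M) (γ : ℂ), ‖γ‖ = 1 → zd (lft z) 0 ≤ T + 1 →
      p i = z + prj M (rd γ (8 * q)) → lft (p i) = lft z + rd γ (8 * q) := by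
    intro i hi z γ hγ hz h
    refine prj_inj (M := M) (s := 10 * T) ((pT i hi).trans (by omega)) ?_ (by omega) ?_
    · have := zd_add0 (lft z) (rd γ (8 * q))
      have := zd_rd hγ (8 * q)
      omega
    · rw [G.prj_add, prj_lft, prj_lft, h]
  have ch := chain_sq (m := q / 3) (n := n) (p := fun i => lft (p i)) c50 H5 (by omega)
    (w := w) (A := cA * νa J ^ 2) (by positivity)
    (fun i hi => by
      have := GeoA.zd_tri (lft (p (i + 1))) 0 (lft (p i))
      have := pT i hi.le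
      have := pT (i + 1) hi
      rw [GeoA.zd_comm 0] at *
      rw [← IConv.tdist_prj (M := M) (by omega), prj_lft, prj_lft]
      exact (p1 i hi).trans (by omega))
    (fun i hi v hv => (w1 v (by
      have := GeoA.zd_tri v (lft (p i)) 0; have := pT i hi; omega)).1)
    (fun i hi v hv => (w1 v (by
      have := GeoA.zd_tri v (lft (p i)) 0; have := pT i hi; omega)).2.2 (p2 i hi _ (by
        have := IConv.tdist_prj_le_zd (M := M) v (lft (p i))
        rw [prj_lft] at this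
        omega)))
    (fun v hv => by
      rw [pe 0 (by omega) a α ma.nrm xa p0, ← add_sub_cancel (lft a) v, zd_shift] at hv
      have b1 := GeoA.zd_tri (v - lft a) (rd α (8 * q)) 0
      have b2 := zd_rd ma.nrm (8 * q)
      simpa only [add_sub_cancel] using (a1 _ hv).trans (hW _ (by omega))) n le_rfl
  simp only [pe n le_rfl b β mb.nrm xb pn] at ch
  have pb : ∀ v, prj M (lft b + v) = b + prj M v := fun v => by rw [G.prj_add, prj_lft]
  have zb : ∀ v, zd (lft b + v) 0 ≤ T + 1 + zd v 0 := fun v => by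
    have := zd_add0 (lft b) v; omega
  have mb' : ∀ v, zd v 0 ≤ 16 * q → (b + prj M v ∈ I ↔ b + prj M v ∈ Ia) := fun v hv =>
    sb.mem_iff hs (B2a.td_le b hv)
  set f : Tor M × Fin 4 → ℝ := fun s => if s.1 ∈ ball b (3 * sc L J) then φ s else 0 with hf
  have d1 : f ⬝ᵥ f ≤ (Γ * (N + 1) * N * νa J) ^ 2 * sc L J := by
    have at1 := cha.pos (J - 1) (by omega) (by omega)
    rw [show J - 1 + 1 = J by omega] at at1
    refine dual sa (by omega) ma.touch (by omega) at1.dom'
      gap hφ (fun s => ?_) fun s h1 _ => if_neg fun h => ?_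
    · simp only [hf]
      split_ifs <;> simp
    · have := tdist_triangle a s.1 b
      have := E4.mem_ball.1 h
      rw [tdist_comm] at h1
      omega
  have pp : PP Ia b (15 * q) φ (fun v => u (lft b + v)) fun v => w (lft b + v) := by
    refine ⟨fun v k hv => ?_, fun v hv => ?_, fun v hv k => ?_, fun v hv k => ?_, fun v hv => ?_,
      fun t ht => ?_⟩
    · have := zb v
      rw [← pb, ← add_sub_assoc]
      exact u1 (lft b + v) k (by omega)
    · exact (w1 _ (by have := zb v; omega)).1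
    · exact (w1 _ (by have := zb v; omega)).2.1 (by rw [pb]; exact fun k' => k (hs k'))
    · simpa only [SupH, add_assoc] using (w1 (lft b + v) (by have := zb v; omega)).2.2
        (by rw [pb]; exact (mb' v (by omega)).2 k)
    · have k1 := u2 (lft b + v) (by have := zb v; omega) fun e => by
        have e1 := B2a.td_le b hv
        rw [← pb, e, prj_lft] at e1
        omega
      have k2 : ∀ j, GG (fun v => u (lft b + v)) ((IN5a.rg Ia).pr b) v j =
          GG u ((IN5a.rg I).pr 0) (lft b + v) j := fun j => by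
        have z1 := fun j => B1a1.zd_corner v j
        unfold GG
        refine if_congr ?_ (by rw [add_assoc]) rfl
        rw [IN5a.pr_iff, IN5a.pr_iff, zero_add, zero_add, add_sub_assoc, add_sub_assoc, pb, pb,
          mb' _ (by have := z1 (j - 1); omega), mb' _ (by have := z1 j; omega)]
      simpa only [k2, pb] using k1
    · have k := P144Z.W.Dm_pow_congr (A := pwI Ia) (A' := pwI I) (z := b) φ 1 (15 * q)
        (fun e he => sb.pw hs e (by omega)) t.1 t.2 ht
      rw [pow_one, pow_one] at k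
      rw [k, hφ, Pi.single_eq_of_ne]
      rintro e
      rw [(Prod.mk.inj e).1] at ht
      omega
  have b1 := hB J (by omega) M Ia b eb β q φ _ _ ub νb η (c' * νa J ^ 2) pp mb (by omega) (by omega)
    (by rw [← IConv.zd_lft_zero]; omega) chb (by positivity) (fun v hv => ?_) ?_
  · refine (le_abs_self _).trans (sq_le_sq.1 ?_)
    rw [mul_pow, mul_pow, Real.sq_sqrt (by positivity)]
    linarith
  · refine le_trans ?_ (ch (lft b + v) (by rw [zd_shift]; omega))
    rw [hc', mul_assoc]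
    refine mul_le_mul_of_nonneg_right ?_ (by positivity)
    exact (pow_le_pow_of_le_one (by positivity) (min_le_right _ _) (by omega)).trans
      (pow_le_pow_left₀ (by positivity) (min_le_left _ _) _)
  · have e1 : l2sq (ball b (3 * sc L J)) φ = l2sq (ball b (3 * sc L J)) f :=
      E4.l2sq_congr fun s hs => (if_pos hs).symm
    refine e1.le.trans (((E4.l2sq_mono (subset_univ _) f).trans (E4.l2sq_univ f).le).trans
      (d1.trans_eq ?_))
    field_simp

end A

open ILB in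
theorem lb2 (hV : PosV) (hP : PathM) : LB2 := by
  have hG := gksStmt
  have hC := cwStmt
  have hW := wickStmt
  have hB := tubeStmt_of2 mkStmt twoPt2
  intro N₀ c hc L hL C
  obtain ⟨C₁, hT⟩ := A.two hV N₀ hc hL
  obtain ⟨Γ, -, hU⟩ := gapU
  obtain ⟨C₂, hP⟩ := hP N₀ C
  obtain ⟨C₃, hY⟩ := cycStmt C
  refine ⟨(C₂ + C₃ + 16) * (C₁ + 1), fun N => ?_⟩
  obtain ⟨N₂, hP⟩ := hP N
  obtain ⟨N₃, hY⟩ := hY N
  obtain ⟨c₁, hc₁, J₁, hT⟩ := hT (max N₂ N)
  obtain ⟨t, ht, ht', c₂, hc₂, q₀, hB⟩ := hB (max N₃ N)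
  set d₁ := min 1 (c₁ / 2) with hd₁
  set d₂ := min 1 (c₂ / 2) with hd₂
  have p₁ : 0 < d₁ := by positivity
  have p₂ : 0 < d₂ := by positivity
  refine ⟨d₂ ^ N₃ * d₁ ^ N / 2 ^ N, by positivity, J₁ + q₀ + C₂ + C₃, fun J hJ M _ Λ T r H k a hs x
    e νc η u ν n₀ hD hΛ _ _ hcn hH hk hx hr hrT hTN hM hch hn hd => ?_⟩
  have hsc : J + 1 ≤ sc L J := le_sc (by omega)
  set q := (C₁ + 1) * sc L J with hq
  have q1 : sc L J ≤ q := Nat.le_mul_of_pos_left _ (Nat.succ_pos _)
  have q2 : C₂ * q + C₃ * q + 16 * q ≤ r := by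
    rw [← add_mul, ← add_mul, hq, ← mul_assoc]
    exact hr
  have q3 : T ≤ N * q := hTN.trans (Nat.mul_le_mul_left _ q1)
  set I := Λ.image (prj M) with hI'
  have hI : ∀ f ∈ I, tdist f 0 ≤ T := fun f hf => by
    obtain ⟨v, hv, rfl⟩ := mem_image.1 hf
    exact (UL.tdist_le v).trans (hΛ v hv)
  have hM' : 4 * (T + 2) ≤ M := by omega
  have hν : ∀ i, 0 < ν i J := fun i => (hch i).nu_pos le_rfl
  have h0 := Y_pos I
  have h1 := marks_bound (c := d₁) (c' := d₂ ^ N₃) (ν := fun i => ν i J) hG hΛ hM'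
    (fun i => (hx.mk1 i).touch) hx.injective (fun i => (hν i).le) p₁.le (min_le_left _ _)
    (by positivity) (fun i j hij hpc => ?_) (fun n h1 h2 => ?_) univ n₀ hn (by simpa using hd)
  · rw [← hI'] at h1
    refine le_trans ?_ h1
    have h2 := Zw_le hG hI hM' hcn
    have h3 : 0 ≤ ∏ i, ν i J := prod_nonneg fun i _ => (hν i).le
    have h4 : (2 : ℝ) ^ H ≤ 2 ^ N := pow_le_pow_right₀ one_le_two hH
    have h5 : d₁ ^ N ≤ d₁ ^ (univ : Finset (Fin k)).card :=
      pow_le_pow_of_le_one p₁.le (min_le_left _ _) (by simpa using hk)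
    refine (mul_le_mul_of_nonneg_left (h2.trans (mul_le_mul_of_nonneg_right h4 h0.le))
      (by positivity)).trans (le_trans (le_of_eq (by field_simp)) (mul_le_mul_of_nonneg_right
        (mul_le_mul_of_nonneg_right (mul_le_mul_of_nonneg_left h5 (by positivity)) h3) h0.le))
  · obtain ⟨U, u1, u2, u3, u4⟩ := hP Λ T r q (x i) (x j) (e i) (e j) _ _ hD hΛ q3 (by omega)
      (by omega) hrT (hx.mk1 i) (hx.mk1 j) (hx.sep i j hij) hpc M (by omega)
    have u5 : r < tdist (prj M (x i)) (prj M (x j)) := hx.tsep hΛ (by omega) hij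
    obtain ⟨n, u6, u7, u8⟩ := path_bound hG hC hW u1 hI u2.conn hM'
      (IT.inj_of_gap (hU M U T N₂ (by omega) (by omega) u2.box u2.tr))
      (s := (prj M (x j), e j + 2)) (s' := (prj M (x i), e i + 2)) (fun h => by
        rw [show prj M (x i) = prj M (x j) from h.symm, tdist_self] at u5
        omega) (mul_pos (mul_pos hc₁ (hν i)) (hν j))
      (hT J (by omega) M U I T q _ _ _ _ _ _ (u i) (u j) (ν i) (ν j) η
        (corr_mono u2 (le_max_left _ _)) u1 u3 u4
        (((hx.mk1 i).mono (by omega)).mkT hΛ (by omega))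
        (((hx.mk1 j).mono (by omega)).mkT hΛ (by omega))
        (by omega) (Nat.mul_le_mul_right _ (Nat.le_succ _)) (by omega)
        (hTN.trans (Nat.mul_le_mul_right _ (le_max_right _ _))) hM (hch i) (hch j))
    refine ⟨n, u6, u7, le_trans (mul_le_mul_of_nonneg_right ?_ h0.le) u8⟩
    have := mul_le_mul_of_nonneg_right (min_le_right 1 (c₁ / 2)) (mul_pos (hν i) (hν j)).le
    linarith
  · obtain ⟨τ, rfl⟩ := exists_dom hI hM' h2 h1
    obtain ⟨m, hm, W, f, D, σ, u1, u2, u3⟩ := hY Λ T r q hD hΛ q3 (by omega) (by omega) hrT M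
      (by omega) τ h1
    have u4 := sum_bound (I := I) hG p₂.le (fun j => by
      obtain ⟨v1, v2, v3, v4, v5⟩ := u1 j
      exact cyc_bound hG v2 (by omega) v1 hI (by omega) ht ht' hc₂ (hB q (by omega) M (W j) T (f j)
        ⟨v2.loc, v2.f_le, v2.q_le, corr_mono v2.cor (le_max_left _ _)⟩
        (q3.trans (Nat.mul_le_mul_right _ (le_max_right _ _))) (by omega)) v3 v4 v5) univ
      (fun e => xor (dom τ e) (dom σ e)) fun e => by
        rw [I1.sgn_xor, u3, mul_right_comm, I1.sgn_mul_self, one_mul]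
    rw [Y, Y, Yn_shift u2] at u4
    exact (mul_le_mul_of_nonneg_right (pow_le_pow_of_le_one p₂.le (min_le_left _ _)
      (by simpa using hm)) h0.le).trans u4

end Vale.Agent.P144C
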