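import Vale.Agent.P144C.A.Geo
import Vale.Agent.P144D.I.N5a.C
import Vale.Agent.P144E.An1.Hol

/-!
Local estimates for a homogeneous solution whose pair is nonnegative.
-/

namespace Vale.Agent.P144C.A

open Finset Matrix Vale.Agent.P144Z Vale.Agent.P144L P144L.G P144L.D IN5a

variable {M : ℕ} [NeZero M] {I : Finset (Tor M)} {z : Tor M} {a₀ : Fin 4} {R : ℕ}
  {φ : Tor M × Fin 4 → ℝ} {U W : ℤ × ℤ → ℝ}

omit [NeZero M] in
theorem ez (z : Tor M) (c v : ℤ × ℤ) : z + prj M c + prj M v = z + prj M (c + v) := by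
  rw [G.prj_add, add_assoc]

theorem pp_shift (h : PP I z R φ U W) {c : ℤ × ℤ} {r : ℕ} (h2 : zd c 0 + r ≤ R) :
    PP I (z + prj M c) r φ (fun v => U (c + v)) fun v => W (c + v) := by
  refine ⟨fun v k hv => ?_, fun v hv => ?_, fun v hv ho => ?_, fun v hv ho => ?_, fun v hv => ?_,
    fun t ht => h.hom t (by
      have h3 := tdist_triangle t.1 (z + prj M c) z
      have h4 := B2a.td_le z (le_refl (zd c 0))
      omega)⟩
  all_goals have := B1a1.zd_add_le c v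
  · rw [← add_sub_assoc, ez]
    exact h.dif _ k (by omega)
  · exact h.nn _ (by omega)
  · exact h.zero _ (by omega) (by rwa [ez] at ho)
  · simpa only [SupH, add_assoc] using h.sup (c + v) (by omega) (by rwa [ez] at ho)
  · simp only [pr_shift, B1a1.GG_shift, ez]
    exact h.sub _ (by omega)

theorem ld_pp (h : LD I z (z, a₀) R φ U W) (hM : 2 * R < M) {c : ℤ × ℤ} {r : ℕ} (h1 : r < zd c 0)
    (h2 : zd c 0 + r ≤ R) : PP I (z + prj M c) r φ (fun v => U (c + v)) fun v => W (c + v) := by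
  refine ⟨fun v k hv => ?_, fun v hv => ?_, fun v hv ho => ?_, fun v hv ho => ?_, fun v hv => ?_,
    h.hom hM h1 h2⟩
  all_goals have := B1a1.zd_add_le c v
  · rw [← add_sub_assoc, ez]
    exact h.dif _ k (by omega)
  · exact h.nn _ (by omega)
  · exact h.zero _ (by omega) (by rwa [ez] at ho)
  · simpa only [SupH, add_assoc] using h.sup (c + v) (by omega) (by rwa [ez] at ho)
  · simp only [pr_shift, B1a1.GG_shift, ez]
    exact h.sub _ (by omega) (ne_zero_of (by omega))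

theorem W_le (h : PP I z R φ U W) {v : ℤ × ℤ} (hv : zd v 0 ≤ R) (k : Fin 4) :
    W (v - cn k) ≤ U v := by linarith [h.dif v k hv, sq_nonneg (chi φ (z + prj M v) k)]

theorem W_le0 (h : PP I z R φ U W) {v : ℤ × ℤ} (hv : zd v 0 ≤ R) : W v ≤ U v := by
  simpa only [B1a1.sub_cn_zero] using W_le h hv 0

theorem U_nn (h : PP I z R φ U W) {v : ℤ × ℤ} (hv : zd v 0 ≤ R) : 0 ≤ U v :=
  (h.nn v (by omega)).trans (W_le0 h hv)

theorem pair (h : PP I z R φ U W) : IsPair R U W ((rg I).pr z) ((rg I).out z) :=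
  ⟨fun _ k hv => W_le h hv k, fun v hv ho => h.zero v hv ((out_iff _ _ _).1 ho), fun v a hp => by
    rw [pr_iff, not_or] at hp
    rwa [out_iff, out_iff], pr_symm I _, fun v hv => (h.sub v (by omega)).1,
    fun v hv ho => h.sup v (by omega) (not_not.1 fun k => ho ((out_iff _ _ _).2 k))⟩

/-- The decay at an outer point. -/
theorem depth : ∃ C β : ℝ, 1 ≤ C ∧ 0 < β ∧ ∀ (M : ℕ) [NeZero M] (I : Finset (Tor M)) (z : Tor M)
    (R : ℕ) φ U W (S : Set (ℤ × ℤ)) (ν : ℂ) (A : ℝ), PP I z R φ U W → ‖ν‖ = 1 → Epi S ν (√2 / 2) →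
    (∀ v, zd v 0 ≤ R → (z + prj M v ∈ I ↔ v ∈ S)) → 0 ∉ S → (∀ v, zd v 0 ≤ R → U v ≤ A) →
    ∀ s : ℕ, 1 ≤ s → s ≤ R → ∀ v, zd v 0 ≤ s → U v ≤ C * A * ((s : ℝ) / R) ^ β := by
  obtain ⟨C, β, hC, b0, -, H⟩ := holS 30
  refine ⟨C, β, hC, b0, fun M _ I z R φ U W S ν A h hν hS hI h0 hA s h1 h2 v hv => ?_⟩
  refine (le_abs_self _).trans (H R U W _ _ (pair h) A (fun t ht => ?_) (fun p hp => ?_) s h1 v hv h2).1
  · have t0 : (0 : ℝ) ≤ t := Nat.cast_nonneg t
    have T1 := nr_fl ν (28 * (t + 1))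
    have T2 : zd (-fl ν (28 * (t + 1))) 0 ≤ 29 * (t + 1) := by
      rw [zd_neg]
      exact T1.zd_le hν (by positivity) (by push_cast; linarith)
    refine ⟨-fl ν (28 * (t + 1)), by omega, fun p hp => ?_⟩
    have key : ∀ k, z + prj M (p - cn k) ∉ I := fun k hk => by
      have a1 : zd (p - cn k) (-fl ν (28 * (t + 1))) ≤ t + 1 := by
        have b1 := B1a1.zd_corner (p - -fl ν (28 * (t + 1))) k
        rw [sub_right_comm, ← zd_sub, ← zd_sub] at b1
        omega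
      have a2 := GeoA.zd_tri (p - cn k) (-fl ν (28 * (t + 1))) 0
      have a3 := (T1.sub (v := 0) (n := 0) (by simp [zd]) a1).cn hν (by push_cast; linarith)
      exact h0 (by simpa using hS _ ((hI _ (by omega)).1 hk) _ a3)
    exact ⟨(out_iff _ _ _).2 (by simpa only [B1a1.sub_cn_zero] using key 0),
      fun a ha => ((pr_iff _ _ _ _).1 ha).elim (key _) (key _)⟩
  · rw [abs_of_nonneg (U_nn h hp), abs_of_nonneg (h.nn p (by omega))]
    exact ⟨hA p hp, (W_le0 h hp).trans (hA p hp)⟩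

/-- Near a deep point the superharmonic function is close to the value at the point. -/
theorem flat : ∃ C : ℝ, 1 ≤ C ∧ ∀ (M : ℕ) [NeZero M] (I : Finset (Tor M)) (z : Tor M)
    (R : ℕ) φ U W, PP I z R φ U W → 2 * R < M → ∀ (r m : ℕ) (S : ℝ), 16 ≤ r → 1 ≤ m →
    2 * m ≤ r → 2 * r + 3 ≤ R → (∀ p, zd p 0 ≤ r + 5 → z + prj M p ∈ I) →
    (∀ p, zd p 0 ≤ R → U p ≤ S) → ∀ p, zd p 0 ≤ m → U 0 - C * S * m / r ≤ W p := by
  obtain ⟨C₁, hC₁, H₁⟩ := B2b2.loc_l2
  obtain ⟨C₂, hC₂, H₂⟩ := B2b2.int_est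
  refine ⟨6 * (C₁ * 7) * C₂, by nlinarith, fun M _ I z R φ U W h hM r m S h1 h2 h3 h5 hI hS
    p hp => ?_⟩
  have r0 : (16 : ℝ) ≤ r := by exact_mod_cast h1
  have m0 : (1 : ℝ) ≤ m := by exact_mod_cast h2
  have z0 : zd (0 : ℤ × ℤ) 0 = 0 := zd_self 0
  have S0 : 0 ≤ S := (U_nn h (by omega)).trans (hS 0 (by omega))
  have a1 := H₁ M (rg I) z R φ U W 7 (by norm_num) (pair h)
    (fun v hv => by simpa only [vx_eq] using (h.sub v (by omega)).2) 0 r S (by omega) fun v hv => by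
      rw [zero_add, abs_of_nonneg (U_nn h (by omega))]
      exact hS v (by omega)
  rw [vx_eq, G.prj_zero, add_zero] at a1
  have hC : 1 ≤ C₁ * 7 := by linarith
  generalize C₁ * 7 = C at a1 hC
  have a2 := (H₂ M (rg I) 1 (fun _ => Or.inl rfl) z r h1 (by omega)
    (fun _ _ => by simp [flux]) (fun f hf => by
      rw [← B2a.zd_lft] at hf
      have := hI _ hf
      rwa [G.add_prj_lft] at this) φ
    (by rw [mul_one]; exact fun t ht => h.hom t (by omega)) (2 * C * S / r) (a1.trans (by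
      have e : 2 * C * S / r * r ^ 2 = C * (2 * r) * S := by field_simp
      rw [e]
      gcongr
      linarith))).1
  set μ := C₂ * (2 * C * S / r) with hμ
  have μ0 : 0 ≤ μ := by positivity
  have a3 : ∀ d k, zd d 0 ≤ m → 0 ≤ U d - W (d - cn k) ∧ U d - W (d - cn k) ≤ μ := fun d k hd => by
    rw [h.dif _ k (by omega)]
    refine ⟨sq_nonneg _, a2 _ k ?_⟩
    have := B2a.td_le z hd
    omega
  have z1 : ∀ d, (0 : ℝ) ≤ ht 0 d := fun d => by simp [ht]
  have a4 := B1b.path 0 m 0 μ U (fun d a k1 _ k2 _ => by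
    obtain ⟨k, k', hk⟩ := B1b.corner d a
    have b1 := a3 d k k1
    have b2 := a3 _ k' k2
    rw [hk] at b2
    rw [abs_le]
    constructor <;> linarith [b1.1, b1.2, b2.1, b2.2]) _ 0 p (by omega) (z1 _) hp (z1 _) rfl
  have a5 := (a3 _ 0 hp).2
  rw [B1a1.sub_cn_zero] at a5
  have a6 : (((0 : ℤ × ℤ).1 - p.1).natAbs + ((0 : ℤ × ℤ).2 - p.2).natAbs : ℕ) ≤ 2 * m := by
    simp only [zd, Prod.fst_zero, Prod.snd_zero, sub_zero, max_le_iff, zero_sub,
      Int.natAbs_neg] at hp ⊢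
    omega
  have a7 := mul_le_mul_of_nonneg_left ((Nat.cast_le (α := ℝ)).2 a6) μ0
  have e : 6 * C * C₂ * S * m / r = μ * (3 * m) := by rw [hμ]; ring
  rw [e]
  push_cast at a7 a4
  nlinarith

end Vale.Agent.P144C.A
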