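import Vale.Agent.P144C.A.All

/-!
The lower bounds near the two marks.
-/

namespace Vale.Agent.P144C.A

open Finset Matrix Vale.Agent.P144Z Vale.Agent.P144L P144L.G P144L.D IN5a

/-- Chains along a ray. -/
theorem ray (n : ℕ) : ∃ c > (0 : ℝ), ∀ (S : Set (ℤ × ℤ)) (ν : ℂ) (W : ℤ × ℤ → ℝ) (y x x' : ℤ × ℤ)
    (t t' δ δ' : ℝ) (m R : ℕ) (A : ℝ), ‖ν‖ = 1 → Epi S ν (√2 / 2) → y ∈ S → zd y 0 ≤ 1 →
    Nr ν t δ x → Nr ν t' δ' x' → 20 * δ ≤ t → 20 * δ' ≤ t' → 1 ≤ m → 250 * (m : ℝ) ≤ t →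
    250 * (m : ℝ) ≤ t' → zd x' x ≤ n * m → 11 * t ≤ 10 * R → 11 * t' ≤ 10 * R → 0 ≤ A →
    (∀ p, zd p 0 ≤ R → p ∈ S → 0 ≤ W p ∧ SupH W p) → (∀ p, zd p x ≤ m → A ≤ W p) →
      ∀ p, zd p x' ≤ m → c * A ≤ W p := by
  obtain ⟨c, c0, -, hc⟩ := harn_seg n
  refine ⟨c, c0, fun S ν W y x x' t t' δ δ' m R A hν hS hy hy' hx hx' h1 h2 h3 h4 h5 h6 h7 h8 hA hW
    hl => hc W x x' m A hA h3 h6 (fun v θ t0 t1 a1 a2 => ?_) hl⟩
  have m0 : (1 : ℝ) ≤ m := by exact_mod_cast h3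
  have cv : ∀ a b g r : ℝ, |a - t * r| ≤ δ → |b - t' * r| ≤ δ' →
      |g - (a + θ * (b - a))| ≤ 3 * m + 1 →
      |g - ((1 - θ) * t + θ * t') * r| ≤ (1 - θ) * δ + θ * δ' + (3 * m + 1) := fun a b g r k1 k2 k3 => by
    rw [abs_le] at k1 k2 k3 ⊢
    constructor <;> nlinarith [mul_le_mul_of_nonneg_left k1.1 (sub_nonneg.2 t1),
      mul_le_mul_of_nonneg_left k1.2 (sub_nonneg.2 t1), mul_le_mul_of_nonneg_left k2.1 t0,
      mul_le_mul_of_nonneg_left k2.2 t0]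
  have b1 : Nr ν ((1 - θ) * t + θ * t') ((1 - θ) * δ + θ * δ' + (3 * m + 1)) v :=
    ⟨cv _ _ _ _ hx.1 hx'.1 a1, cv _ _ _ _ hx.2 hx'.2 a2⟩
  have mx : ∀ a a' b b' : ℝ, a ≤ b → a' ≤ b' → (1 - θ) * a + θ * a' ≤ (1 - θ) * b + θ * b' :=
    fun a a' b b' k k' => add_le_add (mul_le_mul_of_nonneg_left k (sub_nonneg.2 t1))
      (mul_le_mul_of_nonneg_left k' t0)
  have b2 := mx _ _ _ _ h1 h2
  have b3 := mx _ _ _ _ h4 h5
  have b4 := mx _ _ _ _ h7 h8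
  have b5 := (b1.sub (y := 0) (v := v) (n := 0) (by simp [zd]) hy').cn hν (by push_cast; linarith)
  exact hW v (b1.zd_le hν (by linarith) (by linarith)) (by simpa using hS y hy _ b5)

theorem nr_rd (ν : ℂ) (t : ℕ) {v : ℤ × ℤ} {n : ℕ} (h : zd v (rd ν t) ≤ n) : Nr ν t (1 + n) v := by
  simpa using (nr_fl ν t).sub (y := 0) (x := 0) (n' := 0) (v := v) (n := n) (by rwa [zero_add])
    (zd_self 0).le

theorem scales {L j : ℕ} (hL : 8 ≤ L) : ∃ l, j < l ∧ sc L j = 8 * l ∧ sc L (j + 1) = 8 * (L * l) :=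
  ⟨L ^ j, Nat.lt_pow_self (by omega), rfl, by rw [sc, pow_succ']⟩

/-- The lower bound near the source. -/
theorem nearA {c : ℝ} (hc : 1 ≤ c) {L : ℕ} (hL : 8 ≤ L) : ∃ C₀ : ℕ, ∀ N : ℕ, ∃ c₀ > (0 : ℝ),
    ∃ J₀ : ℕ, ∀ J ≥ J₀, ∀ (M : ℕ) [NeZero M] (I : Finset (Tor M)) (z : Tor M) (a : Fin 4) (ν : ℂ)
    (q : ℕ) φ U W u (s : ℕ → ℝ) (η : ℝ), LD I z (z, a) (15 * q) φ U W → Mk0 I (16 * q) z a ν →
    C₀ * sc L J ≤ q → q ≤ N * sc L J → 30 * q < M → MkCh2 (pwI I) L J (z, a) u s c η →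
      ∀ v, zd v (rd ν (8 * q)) ≤ q / 3 → c₀ * s J ^ 2 ≤ W v := by
  obtain ⟨Q, ρ₀, c₁, c1, -, H⟩ := allM
  obtain ⟨C, hC, low⟩ := lower
  refine ⟨Q + 1, fun N => ?_⟩
  obtain ⟨c₂, c2, H₂⟩ := ray (4000 * (N * L))
  refine ⟨c₂ * (c₁ / (C * c ^ 2)), by positivity, ρ₀ + 26,
    fun J hJ M _ I z a ν q φ U W u s η h hm hq hN hM ch v hv => ?_⟩
  obtain ⟨j, rfl⟩ : ∃ j, J = j + 1 := ⟨J - 1, by omega⟩
  have at1 := ch.pos j (by omega) (by omega)
  have hom := ch.hom j (by omega) (by omega)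
  obtain ⟨l, l1, s1, s2⟩ := scales (j := j) hL
  have l2 : 8 * l ≤ L * l := Nat.mul_le_mul_right _ hL
  have l3 : Q * (10 * l) ≤ Q * (8 * (L * l)) := Nat.mul_le_mul_left _ (by omega)
  rw [s1, s2] at at1
  rw [s2] at hom hN hq
  rw [add_mul] at hq
  obtain ⟨S, hS, hI, ⟨k, hk⟩, -⟩ := chart hm (by omega)
  obtain ⟨v', hv', hmax⟩ := exists_max U (10 * l)
  have u1 := h.U_nn (v := v') (by omega)
  have a1 : s j ^ 2 ≤ C * c ^ 2 * U v' := by
    refine low M I _ _ _ φ U W h l (u j) _ c _ (by omega) (by omega) at1.one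
      (fun s hs => hom s (by simp only; omega)) ?_ u1 hmax
    have b1 := at1.test
    rw [show 3 * (8 * l) = 24 * l by ring] at b1
    push_cast at b1
    exact (mul_le_mul_of_nonneg_right (E4.l2sq_le_hsq _ _ _ _) (sq_nonneg _)).trans b1
  have a2 : s (j + 1) ^ 2 ≤ s j ^ 2 :=
    pow_le_pow_left₀ at1.pos'.le (le_trans (by nlinarith [at1.pos']) at1.le) 2
  have a3 := H M I _ _ z a ν φ U W hm h (by omega) (by omega) (10 * l) (by omega) (by omega) v' hv'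
  have a4 := H₂ S ν W _ (rd ν (10 * l)) v _ _ _ _ (l / 25) (15 * q) _ hm.nrm hS hk (zd_face k)
    (nr_rd ν _ (zd_self _).le) (nr_rd ν _ hv) (by exact_mod_cast (by omega))
    (by exact_mod_cast (by omega)) (by omega) (by exact_mod_cast (by omega))
    (by exact_mod_cast (by omega)) (by
      have b1 := GeoA.zd_tri v (rd ν (8 * q)) 0
      have b2 := zd_two v (rd ν (10 * l))
      have b3 := zd_rd hm.nrm (8 * q)
      have b4 := zd_rd hm.nrm (10 * l)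
      have b5 := Nat.mul_le_mul_left (N * L) (show l ≤ 50 * (l / 25) by omega)
      have b6 : N * (8 * (L * l)) = 8 * (N * L * l) := by ring
      have b7 : N * L * (50 * (l / 25)) = 50 * (N * L * (l / 25)) := by ring
      rw [mul_assoc]
      omega) (by exact_mod_cast (by omega)) (by exact_mod_cast (by omega)) (by positivity)
    (fun p hp k => ⟨h.nn p (by omega), h.sup p hp ((hI p (by omega)).2 k)⟩)
    (fun p hp => a3 p (by omega)) v (by rw [zd_self]; omega)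
  refine le_trans ?_ a4
  rw [mul_assoc]
  refine mul_le_mul_of_nonneg_left ?_ c2.le
  rw [div_mul_eq_mul_div, div_le_iff₀ (by positivity), mul_assoc]
  exact mul_le_mul_of_nonneg_left (by linarith) c1.le

theorem mk_mono {M : ℕ} {I : Finset (Tor M)} {N r r' : ℕ} {z : Tor M} {a : Fin 4} {ν : ℂ}
    (h : MkT2 I N r z a ν) (hr : r' ≤ r) : MkT2 I N r' z a ν := by
  obtain ⟨S, h1, h2⟩ := h.cone
  obtain ⟨Hs, Vs, h3, h4⟩ := h.tr
  exact ⟨⟨h.nrm, ⟨S, h1, fun v hv => h2 v (hv.trans hr)⟩, h.rem, h.touch⟩, Hs, Vs,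
    fun x hx => h3 x (hx.trans hr), h4⟩

/-- The lower bound near the second mark. -/
theorem nearB (hP : PosV) (N₀ : ℕ) {c : ℝ} (hc : 1 ≤ c) {L : ℕ} (hL : 8 ≤ L) : ∃ C₀ : ℕ,
    ∀ (N : ℕ) (Q' : ℝ), ∃ c₀ > (0 : ℝ), ∃ J₀ : ℕ, ∀ J ≥ J₀, ∀ (M : ℕ) [NeZero M]
    (I : Finset (Tor M)) (z : Tor M) (a : Fin 4) (ν : ℂ) (q : ℕ) φ U W u (s : ℕ → ℝ) (η A : ℝ),
    PP I z (15 * q) φ U W → MkT2 I N₀ (16 * q) z a ν → C₀ * sc L J ≤ q → q ≤ N * sc L J →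
    64 * (tdist z 0 + q) ≤ M + 64 → MkCh2 (pwI I) L J (z, a) u s c η → 0 ≤ A →
    (∀ v, zd v (rd ν (8 * q)) ≤ q / 3 → A ≤ W v) → l2 z φ (3 * sc L J) ≤ Q' * A * sc L J →
      c₀ * A * s J ^ 2 ≤ φ (z, a) ^ 2 := by
  obtain ⟨Q, -, H⟩ := hP N₀
  obtain ⟨Q₃, -, H₃⟩ := chn
  obtain ⟨c₃, c3, -, H₃⟩ := H₃ 2400 (by norm_num)
  refine ⟨Q + Q₃ + 1, fun N Q' => ?_⟩
  obtain ⟨c₂, c2, H₂⟩ := ray (4000 * (N * L))
  obtain ⟨c₁, c1, ρ₀, H⟩ := H (Q' * L / (3 * (c₃ * c₂)))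
  refine ⟨c₁ * (c₃ * c₂) / c ^ 2, by positivity, ρ₀ + 2501,
    fun J hJ M _ I z a ν q φ U W u s η A h hm hq hN hM ch hA hl hφ => ?_⟩
  obtain ⟨j, rfl⟩ : ∃ j, J = j + 1 := ⟨J - 1, by omega⟩
  have at1 := ch.pos j (by omega) (by omega)
  have hom := ch.hom j (by omega) (by omega)
  obtain ⟨l, l1, s1, s2⟩ := scales (j := j) hL
  have l2 : 8 * l ≤ L * l := Nat.mul_le_mul_right _ hL
  have l3 : Q * (24 * l) ≤ Q * (8 * (L * l)) := Nat.mul_le_mul_left _ (by omega)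
  have l4 : Q₃ * (96 * l) ≤ Q₃ * (15 * (8 * (L * l))) := Nat.mul_le_mul_left _ (by omega)
  rw [mul_left_comm _ 15] at l4
  rw [s1, s2] at at1
  rw [s2] at hom hN hq hφ
  rw [add_mul, add_mul] at hq
  obtain ⟨S, hS, hI, ⟨k, hk⟩, -⟩ := chart hm.toMk0 (by omega)
  have hW : ∀ p, zd p 0 ≤ 15 * q → p ∈ S → 0 ≤ W p ∧ SupH W p := fun p hp k =>
    ⟨h.nn p (by omega), h.sup p hp ((hI p (by omega)).2 k)⟩
  have b4 := zd_rd hm.nrm (24 * l)
  have a1 := H₂ S ν W _ (rd ν (8 * q)) (rd ν (24 * l)) _ _ _ _ (l / 25) (15 * q) _ hm.nrm hS hk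
    (zd_face k) (nr_rd ν _ (zd_self _).le) (nr_rd ν _ (zd_self _).le) (by exact_mod_cast (by omega))
    (by exact_mod_cast (by omega)) (by omega) (by exact_mod_cast (by omega))
    (by exact_mod_cast (by omega)) (by
      have b2 := zd_two (rd ν (24 * l)) (rd ν (8 * q))
      have b3 := zd_rd hm.nrm (8 * q)
      have b5 := Nat.mul_le_mul_left (N * L) (show l ≤ 50 * (l / 25) by omega)
      have b6 : N * (8 * (L * l)) = 8 * (N * L * l) := by ring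
      have b7 : N * L * (50 * (l / 25)) = 50 * (N * L * (l / 25)) := by ring
      rw [mul_assoc]
      omega) (by exact_mod_cast (by omega)) (by exact_mod_cast (by omega)) hA hW
    fun p hp => hl p (by omega)
  have a2 := H₃ S ν W _ (rd ν (24 * l)) (24 * l) (l / 25) (96 * l) _ hm.nrm hS hk (zd_face k)
    (by omega) (by omega) (by omega) (by omega) (by omega) (by positivity)
    (deep hm.nrm hS hk (zd_face k) (ρ := 24 * l) (by omega) (by simp [zd]))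
    (fun p hp => hW p (by omega)) fun p hp => a1 p (by omega)
  have a3 : PP I z (Q * (24 * l)) φ U W := by
    simpa only [zero_add, G.prj_zero, add_zero] using pp_shift h (c := 0) (r := Q * (24 * l))
      (by rw [zd_self]; omega)
  have a4 := H M I _ z a ν (24 * l) (mk_mono hm (r' := Q * (24 * l)) (by omega)) (by omega)
    (by omega) le_rfl φ U W _ (u j) a3 (by positivity) a2 (by
      refine ((E4.l2sq_mono (fun x hx => E4.mem_ball.2 ((E4.mem_ball.1 hx).trans (by omega))) φ).trans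
        hφ).trans_eq ?_
      push_cast
      field_simp
      ring) (fun s hs => hom s (by simp only; omega)) at1.one
  have a5 := at1.test
  rw [show 3 * (8 * l) = 24 * l by ring] at a5
  have a6 := (mul_le_mul_of_nonneg_right (E4.l2sq_le_hsq _ _ _ _) (sq_nonneg _)).trans a5
  have a7 : s (j + 1) ^ 2 ≤ s j ^ 2 := pow_le_pow_left₀ at1.pos'.le
    ((le_mul_of_one_le_left at1.pos'.le (by linarith)).trans at1.le) 2
  have l0 : (0 : ℝ) < l := by exact_mod_cast (by omega : 0 < l)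
  have a8 := mul_le_mul_of_nonneg_right a4 (sq_nonneg (s j))
  have a9 := mul_le_mul_of_nonneg_left a6 (sq_nonneg (φ (z, a)))
  push_cast at a8 a9
  refine (mul_le_mul_of_nonneg_left a7 (by positivity)).trans ?_
  rw [div_mul_eq_mul_div, div_mul_eq_mul_div, div_le_iff₀ (by positivity)]
  refine le_of_mul_le_mul_right ?_ (show 0 < 8 * (l : ℝ) by positivity)
  have p0 : 0 ≤ c₁ * (c₃ * c₂) * A * s j ^ 2 * l := by positivity
  have p1 := a8.trans ((mul_assoc _ _ _).le.trans a9)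
  clear * - p0 p1
  linarith

end Vale.Agent.P144C.A
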